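import Crest.Agent.N49.Ag.Slc
import Crest.Agent.N49.La.Cost

/-!
# Row 49 (helper30): approximate geometry of numbers for bracket forms
-/

set_option autoImplicit false

open Finset Matrix MeasureTheory

noncomputable section

namespace Crest.Agent.N49.Ag

open Po To La

variable {V : Type*} [AddCommGroup V] [Module ℝ V]
variable {d e : Type} [Fintype d] [DecidableEq d] [Fintype e] [DecidableEq e] {M : Matrix d d ℝ}

theorem qf_one (x : e → ℝ) : qf (1 : Matrix e e ℝ) x = ∑ i, x i ^ 2 := by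
  simp [qf, dotProduct, sq]

theorem dual_inl (hM : M.PosDef) (g : Matrix e d ℝ) (k : d ⊕ e → ℝ) :
    qf M⁻¹ (k ∘ .inl + (k ∘ .inr) ᵥ* g) ≤ qf (ex M 1 g)⁻¹ k := by
  set κ := k ∘ .inl + (k ∘ .inr) ᵥ* g with hκ
  have h := dual_sq_le (posDef_ex hM PosDef.one g) (Sum.elim (M⁻¹ *ᵥ κ) (g *ᵥ (M⁻¹ *ᵥ κ))) k
  have u : IsUnit M.det := (Matrix.isUnit_iff_isUnit_det _).1 hM.isUnit
  have a : k ⬝ᵥ Sum.elim (M⁻¹ *ᵥ κ) (g *ᵥ (M⁻¹ *ᵥ κ)) = qf M⁻¹ κ := by
    conv_lhs => rw [← Sum.elim_comp_inl_inr k, sumElim_dotProduct_sumElim, dotProduct_mulVec _ g,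
      ← add_dotProduct]
    rfl
  have b : qf (ex M 1 g) (Sum.elim (M⁻¹ *ᵥ κ) (g *ᵥ (M⁻¹ *ᵥ κ))) = qf M⁻¹ κ := by
    rw [qf_ex, Sum.elim_comp_inl, Sum.elim_comp_inr, sub_self, qf_zero, add_zero, qf,
      mulVec_mulVec, mul_nonsing_inv _ u, one_mulVec, dotProduct_comm]; rfl
  rw [a, b] at h
  have c := qf_nonneg hM.inv κ
  have c' := qf_nonneg (posDef_ex hM PosDef.one g).inv k
  rcases c.eq_or_lt with c | c
  · linarith
  · nlinarith

theorem ex_diag (g : Matrix e d ℝ) (i : e) : ex M 1 g (.inr i) (.inr i) = 1 := by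
  have := qf_ex M 1 g (Pi.single (.inr i) 1)
  have a : (Pi.single (.inr i) 1 : d ⊕ e → ℝ) ∘ Sum.inl = 0 := by funext j; simp
  have b : (Pi.single (.inr i) 1 : d ⊕ e → ℝ) ∘ Sum.inr = Pi.single i 1 := by
    funext j; simp [Pi.single_apply]
  rw [a, b, qf_zero, mulVec_zero, sub_zero, zero_add] at this
  simpa [qf] using this

theorem dual_inr (hM : M.PosDef) (g : Matrix e d ℝ) (k : d ⊕ e → ℝ) (i : e) :
    k (.inr i) ^ 2 ≤ qf (ex M 1 g)⁻¹ k := by
  have h := dual_sq_le (posDef_ex hM PosDef.one g) (Pi.single (.inr i) 1) k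
  have : qf (ex M 1 g) (Pi.single (.inr i) 1) = 1 := by simpa [qf] using ex_diag (M := M) g i
  simpa [this] using h

theorem th_unit : th (1 : Matrix Unit Unit ℝ) 0 ≤ 2 := by
  have h := th_short (M := (1 : Matrix Unit Unit ℝ)) PosDef.one (R := 1) fun n hn => by
    have : n () ≠ 0 := fun c => hn (funext fun _ => c)
    have : (1 : ℝ) ≤ (n () : ℝ) ^ 2 := by exact_mod_cast (sq_pos_of_ne_zero this : 0 < n () ^ 2)
    simpa [qf_one, zc] using this
  have b : bz Unit 1 ≤ 1 / 2 := by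
    have e1 : (3 : ℝ) ≤ Real.exp (Real.pi * 1 / 2) := by
      have := Real.pi_gt_three
      have := Real.quadratic_le_exp_of_nonneg (show 0 ≤ Real.pi * 1 / 2 by positivity)
      nlinarith
    have e2 : √2 ≤ 3 / 2 := Real.sqrt_le_iff.2 ⟨by norm_num, by norm_num⟩
    rw [bz, Fintype.card_unit, pow_one, Real.exp_neg, ← div_eq_mul_inv, div_le_iff₀ (by positivity)]
    linarith
  have := th_nonneg (1 : Matrix Unit Unit ℝ) 0
  nlinarith

theorem th_one_le : th (1 : Matrix e e ℝ) 0 ≤ 2 ^ Fintype.card e := by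
  have := (Gw.hasSum_pi_prod (ι := e) (fun _ n => gs (1 : Matrix Unit Unit ℝ) (zc n - 0))
    fun _ => summable_gs PosDef.one 0).tsum_eq
  rw [prod_const, card_univ] at this
  refine le_trans (le_of_eq ?_) (pow_le_pow_left₀ (th_nonneg _ _) th_unit _)
  rw [th, th, ← this, ← (Equiv.piCongrRight fun _ : e => Equiv.funUnique Unit ℤ).tsum_eq]
  refine tsum_congr fun v => ?_
  simp [gs, qf_one, mul_sum, ← sum_neg_distrib, Real.exp_sum, zc]

theorem gs_ex (θ : d → ℝ) (g : Matrix e d ℝ) (o : e → ℝ) (u : d → ℤ) (w : e → ℤ) :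
    gs (ex M 1 g) (zc (Sum.elim u w) - Sum.elim θ (g *ᵥ θ + o)) =
      gs M (zc u - θ) * gs 1 (zc w - (g *ᵥ zc u + o)) := by
  have a : (zc (Sum.elim u w) - Sum.elim θ (g *ᵥ θ + o)) ∘ Sum.inl = zc u - θ := rfl
  have b : (zc (Sum.elim u w) - Sum.elim θ (g *ᵥ θ + o)) ∘ Sum.inr = zc w - (g *ᵥ θ + o) := rfl
  rw [gs, qf_ex, a, b, mulVec_sub, show zc w - (g *ᵥ θ + o) - (g *ᵥ zc u - g *ᵥ θ) =
    zc w - (g *ᵥ zc u + o) by abel, mul_add, neg_add, Real.exp_add, gs, gs]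

/-- lifting a set along approximate roundings keeps its mass up to `64^-card e` -/
theorem lift_mass (hM : M.PosDef) (θ : d → ℝ) (g : Matrix e d ℝ) (o : e → ℝ) {X : Set (d → ℤ)}
    {Y : Set (d ⊕ e → ℤ)} {δ : ℝ} (hX : δ ≤ (gm M θ).real X)
    (h : ∀ u ∈ X, ∃ w : e → ℤ, (∀ i, |(w i : ℝ) - (g *ᵥ zc u) i - o i| ≤ 1) ∧ Sum.elim u w ∈ Y) :
    δ / 64 ^ Fintype.card e ≤ (gm (ex M 1 g) (Sum.elim θ (g *ᵥ θ + o))).real Y := by
  have hE := posDef_ex hM PosDef.one g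
  set θ' := Sum.elim θ (g *ᵥ θ + o) with hθ
  let E := (Equiv.sumArrowEquivProdArrow d e ℤ).symm
  have t0 := th_pos hM θ
  have t1 := th_pos hE θ'
  have one : (1 : Matrix e e ℝ).PosDef := PosDef.one
  have hth : th (ex M 1 g) θ' ≤ th M θ * 2 ^ Fintype.card e := by
    have s := E.summable_iff.2 (summable_gs hE θ')
    rw [th, ← E.tsum_eq, th, ← tsum_mul_right]
    refine s.tsum_prod.trans_le (s.prod.tsum_le_tsum (fun u => ?_)
      ((summable_gs hM θ).mul_right _))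
    refine le_trans (le_of_eq ?_) (mul_le_mul_of_nonneg_left
      ((th_le one (g *ᵥ zc u + o)).trans th_one_le) (gs_pos _ _).le)
    rw [th, ← tsum_mul_left]
    exact tsum_congr fun w => gs_ex θ g o u w
  have s := E.summable_iff.2 (summable_ind hE θ' Y)
  rw [gm_real hM] at hX
  rw [gm_real hE, ← E.tsum_eq]
  refine le_trans ?_ s.tsum_prod.ge
  refine (div_le_div_of_nonneg_right hX (by positivity)).trans ?_
  rw [← tsum_div_const]
  refine ((summable_ind hM θ X).div_const _).tsum_le_tsum (fun u => ?_) s.prod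
  have nn : ∀ y, 0 ≤ Y.indicator (fun n => gs (ex M 1 g) (zc n - θ') / th (ex M 1 g) θ') y :=
    fun y => Set.indicator_nonneg (fun _ _ => div_nonneg (gs_pos _ _).le t1.le) _
  by_cases m : u ∈ X
  swap
  · rw [Set.indicator_of_notMem m, zero_div]; exact tsum_nonneg fun w => nn _
  obtain ⟨w, w1, w2⟩ := h u m
  refine le_trans ?_ ((s.prod_factor u).le_tsum w fun _ _ => nn _)
  rw [Set.indicator_of_mem m]
  refine le_trans ?_ (Set.indicator_of_mem w2
    fun n => gs (ex M 1 g) (zc n - θ') / th (ex M 1 g) θ').ge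
  refine le_trans ?_ (congrArg (· / th (ex M 1 g) θ') (gs_ex θ g o u w)).ge
  have g1 : (1 / 32 : ℝ) ^ Fintype.card e ≤ gs 1 (zc w - (g *ᵥ zc u + o)) := by
    have a : qf (1 : Matrix e e ℝ) (zc w - (g *ᵥ zc u + o)) ≤ Fintype.card e := by
      rw [qf_one, ← card_univ, card_eq_sum_ones, Nat.cast_sum]
      refine sum_le_sum fun i _ => ?_
      have := w1 i
      rw [sub_sub] at this
      simpa [zc] using (sq_le_one_iff_abs_le_one _).2 this
    have b : (1 / 32 : ℝ) ≤ Real.exp (-Real.pi) := by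
      rw [Real.exp_neg, one_div]
      refine inv_anti₀ (Real.exp_pos _) ?_
      have c : Real.exp Real.pi ≤ Real.exp 1 ^ 3 * Real.exp (1 / 4) := by
        rw [← Real.exp_nat_mul, ← Real.exp_add]
        exact Real.exp_le_exp.2 (by have := Real.pi_lt_d2; push_cast; linarith)
      have c1 := Real.exp_one_lt_d9
      have c2 : Real.exp (1 / 4) ≤ 4 / 3 := by
        have := Real.exp_bound_div_one_sub_of_interval (x := 1 / 4) (by norm_num) (by norm_num)
        linarith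
      have c3 : Real.exp 1 ^ 3 ≤ 2.72 ^ 3 := by gcongr; linarith
      have := Real.exp_pos (1 / 4)
      nlinarith
    refine (pow_le_pow_left₀ (by norm_num) b _).trans ?_
    rw [← Real.exp_nat_mul, gs]
    exact Real.exp_le_exp.2 (by nlinarith [Real.pi_pos])
  have g0 := (gs_pos M (zc u - θ)).le
  have g2 := (gs_pos 1 (zc w - (g *ᵥ zc u + o))).le
  calc gs M (zc u - θ) / th M θ / 64 ^ Fintype.card e
      = gs M (zc u - θ) * (1 / 32 : ℝ) ^ Fintype.card e / (th M θ * 2 ^ Fintype.card e) := by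
        rw [show (64 : ℝ) = 32 * 2 by norm_num, mul_pow, one_div, inv_pow]; field_simp
    _ ≤ _ := by gcongr

/-- **aGN for bracket forms**: relations `(K0, K1)` and the structure modulo them -/
theorem ags (hM : M.PosDef) (θ : d → ℝ) (g : Matrix e d ℝ) (o : e → ℝ) (S : Sz V)
    (Z : AddSubgroup V) {s0 : ℝ} (hZ : ∀ v ∈ Z, ∀ c < s0, S.Bd v c → v = 0) (c : V)
    (ξ : (d → ℤ) →+ V) (t : (e → ℤ) →+ V) {δ δ' ε T X : ℝ} (hδ : 0 < δ') (hε : 0 ≤ ε)
    (hT : 0 < T) (h' : δ' ≤ δ / 64 ^ Fintype.card e)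
    (hS : δ ≤ (gm M θ).real {u | ∃ w : e → ℤ, (∀ i, |(w i : ℝ) - (g *ᵥ zc u) i - o i| ≤ 1) ∧
      ∃ a ∈ Z, S.Bd (c + ξ u + t w - a) ε})
    (hβ : 100 * (12 * (Fintype.card d + Fintype.card e + 2) ^ 3 / √T) ≤ δ' ^ 3)
    (hσ : 400 * ε < s0 * δ' ^ 3) (hX : 1 ≤ X)
    (hX' : (1 + (Fintype.card d + Fintype.card e) / 4) * T ≤ X ^ 2)
    (hb : ∀ m : d → ℤ, m ≠ 0 → ((Fintype.card e + 1) * ((Fintype.card e + 1) * X) ^
      Fintype.card e) ^ 2 * X ^ 2 < qf M⁻¹ (zc m)) :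
    ∃ (r : ℕ) (K0 : Matrix (Fin r) d ℤ) (K1 : Matrix (Fin r) e ℤ), r ≤ Fintype.card e ∧
      (∀ a, qf M⁻¹ (zc (K0 a) + zc (K1 a) ᵥ* g) ≤ X ^ 2) ∧ (∀ a i, |(K1 a i : ℝ)| ≤ X) ∧
      ∃ q : ℕ, 1 ≤ q ∧ (q : ℝ) ≤ 3 / δ' ∧ ∃ (I0 : (d → ℤ) →+ V) (I1 : (e → ℤ) →+ V)
        (E : (Fin r → ℤ) →+ V), (∀ u, I0 u ∈ Z) ∧ (∀ w, I1 w ∈ Z) ∧ ∀ u w,
          S.Bd ((q : ℝ) • (ξ u + t w) - I0 u - I1 w - E (K0 *ᵥ u + K1 *ᵥ w)) (2400 * ε / δ' ^ 3 *
            √(qf M (zc u) + ∑ i, ((w i : ℝ) - (g *ᵥ zc u) i) ^ 2)) := by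
  have hE := posDef_ex hM PosDef.one g
  let l : (d ⊕ e → ℤ) →+ (d → ℤ) := (LinearMap.funLeft ℤ ℤ Sum.inl).toAddMonoidHom
  let r' : (d ⊕ e → ℤ) →+ (e → ℤ) := (LinearMap.funLeft ℤ ℤ Sum.inr).toAddMonoidHom
  obtain ⟨r, s, B, P, C, K, h, hK, q, q1, q2, I, E, hI, hb'⟩ := slc hE (Sum.elim θ (g *ᵥ θ + o)) S Z
    hZ c (ξ.comp l + t.comp r') hδ hε hT (h'.trans (lift_mass hM θ g o hS
      fun u ⟨w, w1, a, ha, w2⟩ => ⟨w, w1, a, ha, by rw [add_assoc] at w2; exact w2⟩))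
    (by simpa using hβ) hσ
  have hr : (r : ℝ) ≤ Fintype.card d + Fintype.card e := by
    have := h.card
    simp only [Fintype.card_fin, Fintype.card_sum] at this
    exact_mod_cast le_trans (Nat.le_add_left _ _) this
  have hK' : ∀ a, qf (ex M 1 g)⁻¹ (zc (K a)) ≤ X ^ 2 := fun a =>
    (hK a).trans (le_trans (by gcongr) hX')
  have X0 : 0 ≤ X := zero_le_one.trans hX
  let il : (d → ℤ) →+ (d ⊕ e → ℤ) :=
    AddMonoidHom.mk' (fun u => Sum.elim u 0) fun a b => by funext x; cases x <;> simp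
  let ir : (e → ℤ) →+ (d ⊕ e → ℤ) :=
    AddMonoidHom.mk' (fun u => Sum.elim 0 u) fun a b => by funext x; cases x <;> simp
  refine ⟨r, K.submatrix id .inl, K.submatrix id .inr, ?_, fun a => (dual_inl hM g _).trans (hK' a),
    fun a i => abs_le_of_sq_le_sq' ((dual_inr hM g _ i).trans (hK' a)) X0 |> abs_le.2, q, q1, q2,
    I.comp il, I.comp ir, E, fun u => hI _, fun u => hI _, fun u w => ?_⟩
  · simpa using h.rank_le hE hK' hX (fun i => by rw [ex_diag, mul_one]) fun k k0 k1 => by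
      refine (hb (k ∘ .inl) fun c => k0 (funext fun x => ?_)).trans_le
        (le_trans (le_of_eq ?_) (dual_inl hM g (zc k)))
      · cases x with
        | inl x => exact congrFun c x
        | inr x => exact k1 x
      · have : zc k ∘ Sum.inr = 0 := funext fun i => by simp [zc, k1]
        rw [this, zero_vecMul, add_zero]; rfl
  · have a := hb' (Sum.elim u w)
    have e1 : Sum.elim u w = il u + ir w := by funext x; cases x <;> simp [il, ir]
    have e2 : K *ᵥ Sum.elim u w = K.submatrix id .inl *ᵥ u + K.submatrix id .inr *ᵥ w := by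
      funext x; simp [mulVec, dotProduct, Fintype.sum_sum_type]
    rw [e2, nq_apply, qf_ex, qf_one] at a
    nth_rewrite 2 [e1] at a
    rw [map_add, ← sub_sub] at a
    exact a

end Crest.Agent.N49.Ag
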