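import Crest.Agent.N49.Po.Sb
import Crest.Agent.N49.La.Sl2

/-!
# Row 49 (helper30): approximate geometry of numbers with slicing
-/

set_option autoImplicit false

open Finset Matrix MeasureTheory

noncomputable section

namespace Crest.Agent.N49.Ag

open Po To La

variable {V : Type*} [AddCommGroup V] [Module ℝ V]

theorem bd_sum (S : Sz V) {ι : Type*} (s : Finset ι) {v : ι → V} {a : ι → ℝ}
    (h : ∀ i ∈ s, S.Bd (v i) (a i)) : S.Bd (∑ i ∈ s, v i) (∑ i ∈ s, a i) := by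
  classical
  induction s using Finset.induction_on with
  | empty => simpa using S.zero
  | insert i s hi ih =>
    rw [sum_insert hi, sum_insert hi]
    exact S.add (h i (mem_insert_self ..)) (ih fun j hj => h j (mem_insert_of_mem hj))

variable {σ : Type} [Fintype σ] [DecidableEq σ]

/-- the real-linear extension of a homomorphism of the lattice -/
def rx (F : (σ → ℤ) →+ V) : (σ → ℝ) →ₗ[ℝ] V where
  toFun x := ∑ i, x i • F (Pi.single i 1)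
  map_add' x y := by simp [add_smul, sum_add_distrib]
  map_smul' t x := by simp [smul_sum, mul_smul]

theorem rx_zc (F : (σ → ℤ) →+ V) (u : σ → ℤ) : rx F (zc u) = F u := by
  conv_rhs => rw [← univ_sum_single u, map_sum]
  refine sum_congr rfl fun i _ => ?_
  rw [show Pi.single i (u i) = u i • (Pi.single i 1 : σ → ℤ) by
    rw [← Pi.single_smul, smul_eq_mul, mul_one], map_zsmul, zc, Int.cast_smul_eq_zsmul]

theorem rx_bd (S : Sz V) (F : (σ → ℤ) →+ V) (N : Seminorm ℝ (σ → ℝ)) {e : ℝ} (he : 0 ≤ e)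
    (h : ∀ u, S.Bd (F u) (e * N (zc u))) (x : σ → ℝ) : S.Bd (rx F x) (e * N x) := by
  refine S.cl fun η hη => ?_
  obtain ⟨n, hn⟩ := exists_nat_gt (2 * e * fine N / η)
  have f0 : 0 ≤ fine N := fine_nonneg
  have n0 : (0 : ℝ) < n := lt_of_le_of_lt (by positivity) hn
  rw [div_lt_iff₀ hη] at hn
  set u : σ → ℤ := fun i => ⌊n * x i⌋ with hu
  set y : σ → ℝ := x - (n : ℝ)⁻¹ • zc u with hy
  have y1 : ∀ i, |y i| ≤ (n : ℝ)⁻¹ := fun i => by
    have a := Int.floor_le (n * x i)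
    have b := Int.lt_floor_add_one (n * x i)
    have e1 : y i = (n : ℝ)⁻¹ * (n * x i - ⌊n * x i⌋) := by
      simp only [hy, hu, zc, Pi.sub_apply, Pi.smul_apply, smul_eq_mul]; field_simp
    rw [e1, abs_mul, abs_of_pos (inv_pos.2 n0)]
    refine mul_le_of_le_one_right (inv_pos.2 n0).le (abs_le.2 ⟨by linarith, by linarith⟩)
  have e2 : rx F x = (n : ℝ)⁻¹ • F u + ∑ i, y i • F (Pi.single i 1) := by
    rw [← rx_zc, ← map_smul]
    exact (show rx F x = rx F ((n : ℝ)⁻¹ • zc u + y) by rw [hy, add_sub_cancel]).trans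
      (map_add _ _ _)
  rw [e2]
  refine S.mono (S.add (S.smul _ (h u)) (bd_sum S _ fun i _ => S.smul _ (h _))) ?_
  have a1 : (n : ℝ)⁻¹ * N (zc u) ≤ N x + (n : ℝ)⁻¹ * fine N := by
    have : (n : ℝ)⁻¹ • zc u = x - y := by rw [hy, sub_sub_cancel]
    have b := map_smul_eq_mul N (n : ℝ)⁻¹ (zc u)
    rw [this, Real.norm_eq_abs, abs_of_pos (inv_pos.2 n0)] at b
    rw [← b]
    exact (map_sub_le_add N x y).trans (add_le_add le_rfl (cube_le y1))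
  have a2 : ∑ i, |y i| * (e * N (zc (Pi.single i 1))) ≤ e * ((n : ℝ)⁻¹ * fine N) := by
    rw [fine, mul_sum, mul_sum]
    refine sum_le_sum fun i _ => ?_
    have : zc (Pi.single i (1 : ℤ)) = Pi.single i (1 : ℝ) := by
      funext j; by_cases c : j = i <;> simp [zc, c]
    rw [this, mul_left_comm]
    exact mul_le_mul_of_nonneg_left (mul_le_mul_of_nonneg_right (y1 i) (apply_nonneg _ _)) he
  rw [abs_of_pos (inv_pos.2 n0), mul_left_comm]
  have a3 := mul_le_mul_of_nonneg_left a1 he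
  have a4 : 2 * (e * ((n : ℝ)⁻¹ * fine N)) ≤ η := by
    rw [show 2 * (e * ((n : ℝ)⁻¹ * fine N)) = 2 * e * fine N / n by field_simp, div_le_iff₀ n0]
    linarith
  nlinarith

variable {d : Type} [Fintype d] [DecidableEq d] {M : Matrix d d ℝ}

/-- some slice carries the same relative density -/
theorem dense_slice (hM : M.PosDef) (θ : d → ℝ) {ρ : Type} [Fintype ρ] [DecidableEq ρ]
    {B : Matrix d σ ℤ} {P : Matrix σ d ℤ} {C : Matrix d ρ ℤ} {K : Matrix ρ d ℤ}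
    (h : Spl B P C K) {X : Set (d → ℤ)} {δ : ℝ} (hX : δ ≤ (gm M θ).real X) :
    ∃ (c : ρ → ℤ) (θ' : σ → ℝ), δ ≤ (gm ((rm B)ᵀ * M * rm B) θ').real {u | B *ᵥ u + C *ᵥ c ∈ X} := by
  have t0 := th_pos hM θ
  obtain ⟨a1, a2⟩ := h.tsum ((summable_gs hM θ).div_const (th M θ))
  obtain ⟨b1, b2⟩ := h.tsum (summable_ind hM θ X)
  rw [tsum_div_const, ← th, div_self t0.ne'] at a2
  rw [← gm_real hM] at b2
  obtain ⟨c, hc⟩ : ∃ c, δ * ∑' u, gs M (zc (B *ᵥ u + C *ᵥ c) - θ) / th M θ ≤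
      ∑' u, X.indicator (fun n => gs M (zc n - θ) / th M θ) (B *ᵥ u + C *ᵥ c) := by
    by_contra k
    push Not at k
    have := hasSum_lt (fun c => (k c).le) (k 0) b2 (a2.mul_left δ)
    linarith
  have hB := h.rm.inj
  have hM' := posDef_conj hM hB
  set θ0 := θ - zc (C *ᵥ c) with h0
  set θ' := ((rm B)ᵀ * M * rm B)⁻¹ *ᵥ ((rm B)ᵀ *ᵥ (M *ᵥ θ0)) with h1
  set κ := gs M (rm B *ᵥ θ' - θ0) / th M θ with hκ
  have k0 : 0 < κ := div_pos (gs_pos _ _) t0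
  have e : ∀ u, gs M (zc (B *ᵥ u + C *ᵥ c) - θ) / th M θ =
      κ * gs ((rm B)ᵀ * M * rm B) (zc u - θ') := fun u => by
    have : zc (B *ᵥ u + C *ᵥ c) - θ = rm B *ᵥ zc u - θ0 := by
      rw [zc_add, zc_mulVec, h0]; abel
    rw [this, hκ, gs, qf_proj hM hB, gs, gs, mul_add, neg_add, Real.exp_add]; ring
  refine ⟨c, θ', ?_⟩
  have t1 := th_pos hM' θ'
  rw [gm_real hM']
  simp only [e] at hc
  rw [tsum_mul_left, ← th] at hc
  have : ∑' u, X.indicator (fun n => gs M (zc n - θ) / th M θ) (B *ᵥ u + C *ᵥ c) =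
      κ * th ((rm B)ᵀ * M * rm B) θ' * ∑' n, {u | B *ᵥ u + C *ᵥ c ∈ X}.indicator
        (fun n => gs ((rm B)ᵀ * M * rm B) (zc n - θ') / th ((rm B)ᵀ * M * rm B) θ') n := by
    rw [← tsum_mul_left]
    refine tsum_congr fun u => ?_
    by_cases m : B *ᵥ u + C *ᵥ c ∈ X
    · rw [Set.indicator_of_mem m, Set.indicator_of_mem (by exact m), e]; field_simp
    · rw [Set.indicator_of_notMem m, Set.indicator_of_notMem (by exact m), mul_zero]
  rw [this, mul_comm δ] at hc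
  exact le_of_mul_le_mul_left hc (mul_pos k0 t1)

/-- **aGN with slicing** on an arbitrary Gaussian lattice -/
theorem slc (hM : M.PosDef) (θ : d → ℝ) (S : Sz V) (Z : AddSubgroup V) {s0 : ℝ}
    (hZ : ∀ v ∈ Z, ∀ c < s0, S.Bd v c → v = 0) (c : V) (ξ : (d → ℤ) →+ V) {δ ε T : ℝ}
    (hδ : 0 < δ) (hε : 0 ≤ ε) (hT : 0 < T)
    (hS : δ ≤ (gm M θ).real {u | ∃ a ∈ Z, S.Bd (c + ξ u - a) ε})
    (hβ : 100 * (12 * (Fintype.card d + 2) ^ 3 / √T) ≤ δ ^ 3) (hσ : 400 * ε < s0 * δ ^ 3) :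
    ∃ (r s : ℕ) (B : Matrix d (Fin s) ℤ) (P : Matrix (Fin s) d ℤ) (C : Matrix d (Fin r) ℤ)
      (K : Matrix (Fin r) d ℤ), Spl B P C K ∧ (∀ a, qf M⁻¹ (zc (K a)) ≤ (1 + r / 4) * T) ∧
      ∃ q : ℕ, 1 ≤ q ∧ (q : ℝ) ≤ 3 / δ ∧ ∃ (I : (d → ℤ) →+ V) (E : (Fin r → ℤ) →+ V),
        (∀ u, I u ∈ Z) ∧ ∀ y, S.Bd ((q : ℝ) • ξ y - I y - E (K *ᵥ y))
          (2400 * ε / δ ^ 3 * nq hM (zc y)) := by
  obtain ⟨r, s, B, P, C, K, h, hK, hs⟩ := slice hM T
  obtain ⟨c0, θ', hd⟩ := dense_slice hM θ h hS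
  have hM' := posDef_conj hM h.rm.inj
  have := gm_prob hM' θ'
  have hc : (Fintype.card (Fin s) : ℝ) ≤ Fintype.card d := by
    exact_mod_cast le_trans (Nat.le_add_right _ _) h.card
  obtain ⟨q, q1, q2, I, hI, hb, -⟩ := agn S Z hZ (gm_qi hM' θ') (fi_smooth hM' hT hs)
    (c + ξ (C *ᵥ c0)) (ξ.comp B.mulVecLin.toAddMonoidHom) hδ hε
    (hd.trans_eq (congrArg _ (Set.ext fun u => by
      simp [add_assoc, add_comm (ξ (C *ᵥ c0))]))) (le_trans (by gcongr) hβ) hσ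
  obtain ⟨Q, G, hP, hQ⟩ := h.rm.proj hM
  let F : (Fin s → ℤ) →+ V :=
    ((q : ℝ) • (ξ.comp B.mulVecLin.toAddMonoidHom) : (Fin s → ℤ) →+ V) - I
  have e0 : 0 ≤ 600 * ε / δ ^ 3 := by positivity
  have hF := rx_bd S F ((4 : NNReal) • nq hM') e0 fun u => by rw [zc_eq_ci]; exact hb u
  refine ⟨r, s, B, P, C, K, h, hK, q, q1, q2, I.comp P.mulVecLin.toAddMonoidHom,
    ((q : ℝ) • (ξ.comp C.mulVecLin.toAddMonoidHom) : (Fin r → ℤ) →+ V) +
      ((rx F).toAddMonoidHom.comp G.mulVecLin.toAddMonoidHom).comp ci, fun u => hI _, fun y => ?_⟩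
  have e1 : (q : ℝ) • ξ y - I (P *ᵥ y) - ((q : ℝ) • ξ (C *ᵥ (K *ᵥ y)) +
      rx F (G *ᵥ ci (K *ᵥ y))) = rx F (Q *ᵥ zc y) := by
    have a : rx F (zc (P *ᵥ y)) = rx F (Q *ᵥ zc y) + rx F (G *ᵥ ci (K *ᵥ y)) := by
      rw [← map_add, zc_mulVec, ← zc_eq_ci, zc_mulVec, mulVec_mulVec, ← add_mulVec]
      exact congrArg (fun A => rx F (A *ᵥ zc y)) hP
    rw [rx_zc] at a
    have b : F (P *ᵥ y) = (q : ℝ) • ξ (B *ᵥ (P *ᵥ y)) - I (P *ᵥ y) := rfl
    conv_lhs => rw [h.eq y, map_add, ← h.eq y, smul_add]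
    rw [eq_sub_of_add_eq a.symm, b]; abel
  refine S.mono (e1 ▸ hF (Q *ᵥ zc y)) ?_
  have : nq hM' (Q *ᵥ zc y) ≤ nq hM (zc y) := Real.sqrt_le_sqrt (hQ _)
  rw [_root_.smul_apply, NNReal.smul_def]
  simp only [NNReal.coe_ofNat, smul_eq_mul]
  rw [show 2400 * ε / δ ^ 3 * nq hM (zc y) = 600 * ε / δ ^ 3 * (4 * nq hM (zc y)) by ring]
  gcongr

end Crest.Agent.N49.Ag
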